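import Mathlib
import Vale.Agent.Lib.P248.helper1.ConeAux
import Vale.Agent.Lib.P248.helper81.ModelVol

/-!
# P248 (helper24, pool job P248-CQC2b, backup copy): the volume of the slab model, upper bound

The section of the slab model `polarModel D ζ τ` at height `s` is empty outside the closed
interval from -1/τ to 1/(1-τ), and inside the open interval it is contained in the dilate of
polarAt D ζ by the factor 1 + τ s.  Hence the volume of the slab model is at most the volume
of polarAt D ζ divided by (n+1) τ (1-τ)^(n+1).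
-/

namespace Vale.Agent.Lib.P248.H24

open MeasureTheory Set
open scoped ENNReal Pointwise
open Vale.Agent.Lib.P227 Vale.Agent.Lib.P248.H1

/-- The section of the slab model at a height `s` with `1 + τ s > 0` lies in a dilate of the
polar of the base. -/
theorem sec_polarModel_subset {n : ℕ} (D : Set (EuclideanSpace ℝ (Fin n)))
    (ζ : EuclideanSpace ℝ (Fin n)) (τ s : ℝ) (hpos : 0 < 1 + τ * s) :
    sec s (polarModel D ζ τ) ⊆ (1 + τ * s) • polarAt D ζ := by
  intro w hw
  have hw' : ecomb s w ∈ polarModel D ζ τ := hw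
  obtain ⟨_, _, h3⟩ := hw'
  refine ⟨(1 + τ * s)⁻¹ • w, ?_, ?_⟩
  · intro d hd
    have h := h3 d hd
    rw [ecomb_zero, etail_ecomb] at h
    show inner ℝ (d - ζ) ((1 + τ * s)⁻¹ • w) ≤ 1
    rw [inner_smul_right, inv_mul_le_iff₀ hpos, mul_one]
    exact h
  · show (1 + τ * s) • ((1 + τ * s)⁻¹ • w) = w
    rw [smul_smul, mul_inv_cancel₀ hpos.ne', one_smul]

/-- The section of the slab model is empty outside the closed interval. -/
theorem sec_polarModel_empty {n : ℕ} (D : Set (EuclideanSpace ℝ (Fin n)))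
    (ζ : EuclideanSpace ℝ (Fin n)) (τ s : ℝ) (hs : s ∉ Icc (-1 / τ) (1 / (1 - τ))) :
    sec s (polarModel D ζ τ) = ∅ := by
  ext w
  simp only [mem_empty_iff_false, iff_false]
  intro hw
  have hw' : ecomb s w ∈ polarModel D ζ τ := hw
  obtain ⟨h1, h2, _⟩ := hw'
  rw [ecomb_zero] at h1 h2
  exact hs ⟨h1, h2⟩

theorem vol_polarModel_le {n : ℕ} (D : Set (EuclideanSpace ℝ (Fin n)))
    (ζ : EuclideanSpace ℝ (Fin n)) (τ : ℝ) (hτ0 : 0 < τ) (hτ1 : τ < 1) :
    volume (polarModel D ζ τ) ≤
      ENNReal.ofReal (1 / ((n + 1) * τ * (1 - τ) ^ (n + 1))) * volume (polarAt D ζ) := by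
  have hM := H81.measurableSet_polarModel D ζ τ
  have hmeas : Measurable fun s : ℝ => ENNReal.ofReal ((1 + τ * s) ^ n) := by fun_prop
  have hsupp : ∀ s, s ∉ Icc (-1 / τ) (1 / (1 - τ)) →
      volume (sec s (polarModel D ζ τ)) = 0 := by
    intro s hs
    rw [sec_polarModel_empty D ζ τ s hs, measure_empty]
  calc volume (polarModel D ζ τ) = ∫⁻ s, volume (sec s (polarModel D ζ τ)) :=
        volume_eq_lintegral_sec hM
    _ = ∫⁻ s in Icc (-1 / τ) (1 / (1 - τ)), volume (sec s (polarModel D ζ τ)) := by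
        rw [← lintegral_indicator measurableSet_Icc]
        congr 1
        funext s
        by_cases hs : s ∈ Icc (-1 / τ) (1 / (1 - τ))
        · rw [indicator_of_mem hs]
        · rw [indicator_of_notMem hs, hsupp s hs]
    _ = ∫⁻ s in Ioo (-1 / τ) (1 / (1 - τ)), volume (sec s (polarModel D ζ τ)) :=
        (setLIntegral_congr Ioo_ae_eq_Icc).symm
    _ ≤ ∫⁻ s in Ioo (-1 / τ) (1 / (1 - τ)),
          ENNReal.ofReal ((1 + τ * s) ^ n) * volume (polarAt D ζ) := by
        refine setLIntegral_mono' measurableSet_Ioo fun s hs => ?_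
        have h1 : -1 / τ < s := hs.1
        have hpos : 0 < 1 + τ * s := by
          rw [div_lt_iff₀ hτ0] at h1
          nlinarith
        have hvol : volume ((1 + τ * s) • polarAt D ζ) =
            ENNReal.ofReal ((1 + τ * s) ^ n) * volume (polarAt D ζ) := by
          rw [Measure.addHaar_smul, finrank_euclideanSpace_fin,
            abs_of_nonneg (pow_nonneg hpos.le n)]
        rw [← hvol]
        exact measure_mono (sec_polarModel_subset D ζ τ s hpos)
    _ = (∫⁻ s in Ioo (-1 / τ) (1 / (1 - τ)), ENNReal.ofReal ((1 + τ * s) ^ n)) *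
          volume (polarAt D ζ) := lintegral_mul_const _ hmeas
    _ = ENNReal.ofReal (1 / ((n + 1) * τ * (1 - τ) ^ (n + 1))) * volume (polarAt D ζ) := by
        rw [H81.lintegral_slab n τ hτ0 hτ1]

end Vale.Agent.Lib.P248.H24
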