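import Mathlib
import Vale.Agent.Lib.P248.helper1.ConeAux
import Vale.Agent.Lib.P248.helper77.ConeVol

/-!
# P248 (helper24, pool job P248-CQA2, second copy): the volume of a cone, upper bound

The section of the cone over D at height t is empty for t outside the closed interval from
0 to h, and it is contained in the image of D under the homothety with centre c and ratio
1 - t / h.  Hence the volume of the cone is at most h / (n + 1) times the volume of D.
-/

namespace Vale.Agent.Lib.P248.H24

open MeasureTheory Set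
open scoped ENNReal
open Vale.Agent.Lib.P227 Vale.Agent.Lib.P248.H1

/-- A point of the cone at height `t` has parameter `t / h`. -/
theorem coneE_param {n : ℕ} (D : Set (EuclideanSpace ℝ (Fin n)))
    (c : EuclideanSpace ℝ (Fin n)) (h : ℝ) (hh : 0 < h) (t : ℝ)
    (w : EuclideanSpace ℝ (Fin n)) (hw : ecomb t w ∈ coneE D c h) :
    ∃ d ∈ D, 0 ≤ t / h ∧ t / h ≤ 1 ∧ w = (1 - t / h) • d + (t / h) • c := by
  obtain ⟨d, hd, r, hr0, hr1, he⟩ := hw
  have h0 : t = r * h := by
    have h' := congrArg (fun x : EuclideanSpace ℝ (Fin (n + 1)) => x 0) he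
    simpa only [ecomb_zero] using h'
  have h1 : w = (1 - r) • d + r • c := by
    have h' := congrArg etail he
    simpa only [etail_ecomb] using h'
  have hr : t / h = r := by
    rw [h0, mul_div_assoc, div_self hh.ne', mul_one]
  rw [hr]
  exact ⟨d, hd, hr0, hr1, h1⟩

/-- The section of the cone at height `t` lies in a homothetic image of the base. -/
theorem sec_coneE_subset {n : ℕ} (D : Set (EuclideanSpace ℝ (Fin n)))
    (c : EuclideanSpace ℝ (Fin n)) (h : ℝ) (hh : 0 < h) (t : ℝ) :
    sec t (coneE D c h) ⊆ AffineMap.homothety c (1 - t / h) '' D := by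
  intro w hw
  obtain ⟨d, hd, _, _, h1⟩ := coneE_param D c h hh t w hw
  refine ⟨d, hd, ?_⟩
  rw [AffineMap.homothety_apply, h1]
  simp only [vsub_eq_sub, vadd_eq_add]
  module

/-- The section of the cone is empty outside the closed interval of heights. -/
theorem sec_coneE_empty {n : ℕ} (D : Set (EuclideanSpace ℝ (Fin n)))
    (c : EuclideanSpace ℝ (Fin n)) (h : ℝ) (hh : 0 < h) (t : ℝ) (ht : t ∉ Icc (0 : ℝ) h) :
    sec t (coneE D c h) = ∅ := by
  ext w
  simp only [mem_empty_iff_false, iff_false]
  intro hw
  obtain ⟨d, _, h0, h1, _⟩ := coneE_param D c h hh t w hw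
  apply ht
  refine ⟨?_, ?_⟩
  · have := mul_nonneg h0 hh.le
    rwa [div_mul_cancel₀ t hh.ne'] at this
  · exact (div_le_one hh).1 h1

theorem vol_cone_le {n : ℕ} (D : Set (EuclideanSpace ℝ (Fin n)))
    (c : EuclideanSpace ℝ (Fin n)) (h : ℝ) (hh : 0 < h) (hK : MeasurableSet (coneE D c h)) :
    volume (coneE D c h) ≤ ENNReal.ofReal (h / (n + 1)) * volume D := by
  have hmeas : Measurable fun t : ℝ => ENNReal.ofReal ((1 - t / h) ^ n) := by fun_prop
  have hsupp : ∀ t, t ∉ Icc (0 : ℝ) h → volume (sec t (coneE D c h)) = 0 := by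
    intro t ht
    rw [sec_coneE_empty D c h hh t ht, measure_empty]
  calc volume (coneE D c h) = ∫⁻ t, volume (sec t (coneE D c h)) :=
        volume_eq_lintegral_sec hK
    _ = ∫⁻ t in Icc (0 : ℝ) h, volume (sec t (coneE D c h)) := by
        rw [← lintegral_indicator measurableSet_Icc]
        congr 1
        funext t
        by_cases ht : t ∈ Icc (0 : ℝ) h
        · rw [indicator_of_mem ht]
        · rw [indicator_of_notMem ht, hsupp t ht]
    _ = ∫⁻ t in Ico (0 : ℝ) h, volume (sec t (coneE D c h)) :=
        (setLIntegral_congr Ico_ae_eq_Icc).symm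
    _ ≤ ∫⁻ t in Ico (0 : ℝ) h, ENNReal.ofReal ((1 - t / h) ^ n) * volume D := by
        refine setLIntegral_mono' measurableSet_Ico fun t ht => ?_
        have hvol := Measure.addHaar_image_homothety
          (volume : Measure (EuclideanSpace ℝ (Fin n))) c (1 - t / h) D
        rw [finrank_euclideanSpace_fin] at hvol
        have hnn : 0 ≤ 1 - t / h := by
          have h1 : t / h ≤ 1 := (div_le_one hh).2 ht.2.le
          linarith
        rw [abs_of_nonneg (pow_nonneg hnn n)] at hvol
        rw [← hvol]
        exact measure_mono (sec_coneE_subset D c h hh t)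
    _ = (∫⁻ t in Ico (0 : ℝ) h, ENNReal.ofReal ((1 - t / h) ^ n)) * volume D :=
        lintegral_mul_const _ hmeas
    _ = ENNReal.ofReal (h / (n + 1)) * volume D := by
        rw [H77.lintegral_one_sub_div_pow n h hh]

end Vale.Agent.Lib.P248.H24
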